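import Mathlib

open Finset

namespace Vale.Agent.Grid

variable {d : ℕ}

/-- Integer points of the cube of radius `T`. -/
noncomputable def box (d T : ℕ) : Finset (Fin d → ℤ) :=
  Fintype.piFinset fun _ => Finset.Icc (-(T : ℤ)) T

/-- The maximum norm of an integer vector. -/
def sz (x : Fin d → ℤ) : ℕ := Finset.univ.sup fun i => (x i).natAbs

lemma mem_box {T : ℕ} {x : Fin d → ℤ} : x ∈ box d T ↔ ∀ i, |x i| ≤ T := by
  simp [box, Fintype.mem_piFinset, abs_le]

lemma mem_box_sz {T : ℕ} {x : Fin d → ℤ} : x ∈ box d T ↔ sz x ≤ T := by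
  rw [mem_box, sz, Finset.sup_le_iff]
  constructor
  · intro h i _
    have := h i
    rw [Int.abs_eq_natAbs] at this
    omega
  · intro h i
    have := h i (Finset.mem_univ i)
    rw [Int.abs_eq_natAbs]
    omega

lemma card_box (d T : ℕ) : (box d T).card = (2 * T + 1) ^ d := by
  have h : ((T : ℤ) + 1 + T).toNat = 2 * T + 1 := by omega
  simp [box, Fintype.card_piFinset, h]

lemma sz_pos {x : Fin d → ℤ} (hx : x ≠ 0) : 1 ≤ sz x := by
  by_contra h
  apply hx
  funext i
  have h2 : (x i).natAbs ≤ sz x := Finset.le_sup (f := fun j => (x j).natAbs) (Finset.mem_univ i)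
  have h3 : (x i).natAbs = 0 := by omega
  exact Int.natAbs_eq_zero.mp h3

/-- A vector of coprime integers, expressed by a Bezout identity. -/
def Prim (x : Fin d → ℤ) : Prop := ∃ c : Fin d → ℤ, ∑ i, c i * x i = 1

lemma Prim.ne_zero {x : Fin d → ℤ} (h : Prim x) : x ≠ 0 := by
  obtain ⟨c, hc⟩ := h
  intro hx
  subst hx
  simp at hc

lemma exists_prim {z : Fin d → ℤ} (hz : z ≠ 0) :
    ∃ g : ℤ, 0 < g ∧ ∃ p : Fin d → ℤ, Prim p ∧ ∀ i, z i = g * p i := by
  obtain ⟨i, hi⟩ : ∃ i, z i ≠ 0 := by
    by_contra h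
    push Not at h
    exact hz (funext h)
  obtain ⟨p, hp, hp1⟩ := Finset.extract_gcd z ⟨i, Finset.mem_univ i⟩
  obtain ⟨c, hc⟩ := Finset.gcd_eq_sum_mul Finset.univ p
  refine ⟨Finset.univ.gcd z, ?_, p, ⟨c, ?_⟩, fun j => hp j (Finset.mem_univ j)⟩
  · have h0 : Finset.univ.gcd z ≠ 0 := Finset.gcd_ne_zero_iff.mpr ⟨i, Finset.mem_univ i, hi⟩
    have h1 : (0 : ℤ) ≤ Finset.univ.gcd z := Int.finsetGcd_nonneg
    omega
  · calc ∑ j, c j * p j = ∑ j, p j * c j := Finset.sum_congr rfl fun j _ => mul_comm _ _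
      _ = 1 := by rw [← hc, hp1]

/-- The linear form with coefficient vector `l`, at an integer point. -/
def dot (l : Fin d → ℝ) (b : Fin d → ℤ) : ℝ := ∑ i, l i * (b i : ℝ)

/-- The zero set of a linear form in the cube. -/
noncomputable def zeros (l : Fin d → ℝ) (T : ℕ) : Finset (Fin d → ℤ) :=
  (box d T).filter fun b => dot l b = 0

/-- `l` is a positive multiple of the primitive vector `q`. -/
def Along (l : Fin d → ℝ) (q : Fin d → ℤ) : Prop :=
  Prim q ∧ ∃ r : ℝ, 0 < r ∧ ∀ i, l i = r * (q i : ℝ)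

lemma zeros_small_or_along (l : Fin d → ℝ) (hl : l ≠ 0) (T : ℕ) :
    (zeros l T).card ≤ (2 * T + 1) ^ (d - 2) ∨ ∃ q, Along l q := by
  classical
  obtain ⟨i, hi⟩ : ∃ i, l i ≠ 0 := by
    by_contra h
    push Not at h
    exact hl (funext h)
  by_cases hrat : ∀ j, ∃ r : ℚ, l j = (r : ℝ) * l i
  · right
    choose r hr using hrat
    set D : ℕ := ∏ j, (r j).den with hD
    set z : Fin d → ℤ := fun j => (r j).num * ((∏ k ∈ Finset.univ.erase j, (r k).den : ℕ) : ℤ)
      with hzdef
    have hz : ∀ j, (z j : ℝ) = (D : ℝ) * (r j : ℝ) := by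
      intro j
      have h1 : D = (r j).den * ∏ k ∈ Finset.univ.erase j, (r k).den := by
        rw [hD, Finset.mul_prod_erase _ (fun k => (r k).den) (Finset.mem_univ j)]
      have h2 : ((r j).den : ℝ) * (r j : ℝ) = ((r j).num : ℝ) := by
        rw [mul_comm]
        exact_mod_cast Rat.mul_den_eq_num (r j)
      rw [hzdef, h1]
      push_cast
      rw [← h2]
      ring
    have hD0 : (0 : ℝ) < D := by
      have : 0 < D := Finset.prod_pos fun j _ => (r j).den_pos
      exact_mod_cast this
    have hli : ∀ j, l j = (z j : ℝ) * (l i / D) := by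
      intro j
      rw [hz j, hr j]
      field_simp
    have hzne : z ≠ 0 := by
      intro h
      have h1 := hli i
      rw [h] at h1
      simp at h1
      exact hi h1
    obtain ⟨g, hg, p, ⟨c, hc⟩, hzp⟩ := exists_prim hzne
    have hg' : (0 : ℝ) < (g : ℝ) := by exact_mod_cast hg
    rcases lt_or_gt_of_ne hi with hneg | hpos
    · refine ⟨fun j => -p j, ⟨fun j => -c j, ?_⟩, (g : ℝ) * (-(l i) / D), ?_, fun j => ?_⟩
      · simpa using hc
      · exact mul_pos hg' (div_pos (neg_pos.mpr hneg) hD0)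
      · rw [hli j, hzp j]
        push_cast
        ring
    · refine ⟨p, ⟨c, hc⟩, (g : ℝ) * (l i / D), mul_pos hg' (div_pos hpos hD0), fun j => ?_⟩
      rw [hli j, hzp j]
      push_cast
      ring
  · left
    push Not at hrat
    obtain ⟨j, hj⟩ := hrat
    have hji : j ≠ i := by
      intro h
      exact hj 1 (by simp [h])
    set F : (Fin d → ℤ) → (Fin d → ℤ) := fun b k => if k = i ∨ k = j then 0 else b k with hF
    set S : Finset (Fin d → ℤ) :=
      Fintype.piFinset fun k => if k = i ∨ k = j then {0} else Finset.Icc (-(T : ℤ)) T with hS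
    have hmaps : Set.MapsTo F (zeros l T : Set (Fin d → ℤ)) (S : Set (Fin d → ℤ)) := by
      intro b hb
      simp only [Finset.mem_coe, zeros, Finset.mem_filter, box, Fintype.mem_piFinset] at hb
      simp only [Finset.mem_coe, hS, Fintype.mem_piFinset, hF]
      intro k
      by_cases hk : k = i ∨ k = j
      · simp [hk]
      · simp only [hk, if_false]
        exact hb.1 k
    have hinj : Set.InjOn F (zeros l T : Set (Fin d → ℤ)) := by
      intro b hb b' hb' he
      simp only [Finset.mem_coe, zeros, Finset.mem_filter] at hb hb'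
      have hother : ∀ k, k ≠ i → k ≠ j → b k = b' k := by
        intro k h1 h2
        have := congrFun he k
        simpa [hF, h1, h2] using this
      have hsum : ∑ k, l k * ((b k : ℝ) - (b' k : ℝ)) = 0 := by
        have h1 := hb.2
        have h2 := hb'.2
        simp only [dot] at h1 h2
        simp only [mul_sub, Finset.sum_sub_distrib, h1, h2, sub_zero]
      rw [← Finset.sum_subset (Finset.subset_univ {i, j})] at hsum
      · rw [Finset.sum_pair hji.symm] at hsum
        have hbj : b j = b' j := by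
          by_contra hne
          set u : ℤ := b i - b' i with hu
          set v : ℤ := b j - b' j with hv
          have hv0 : v ≠ 0 := sub_ne_zero.mpr hne
          refine hj (-(u : ℚ) / (v : ℚ)) ?_
          have h1 : l i * (u : ℝ) + l j * (v : ℝ) = 0 := by
            rw [hu, hv]; push_cast; linarith
          have hv' : (v : ℝ) ≠ 0 := by exact_mod_cast hv0
          push_cast
          field_simp
          linarith
        rw [hbj] at hsum
        have hbi : (b i : ℝ) - (b' i : ℝ) = 0 := by
          simpa [hi] using hsum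
        have hbi' : b i = b' i := by exact_mod_cast (sub_eq_zero.mp hbi)
        funext k
        by_cases h1 : k = i
        · rw [h1]; exact hbi'
        by_cases h2 : k = j
        · rw [h2]; exact hbj
        exact hother k h1 h2
      · intro k _ hk
        simp only [Finset.mem_insert, Finset.mem_singleton, not_or] at hk
        simp [hother k hk.1 hk.2]
    refine le_trans (Finset.card_le_card_of_injOn F hmaps hinj) (le_of_eq ?_)
    have h2T : ((T : ℤ) + 1 + T).toNat = 2 * T + 1 := by omega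
    rw [hS, Fintype.card_piFinset,
      ← Finset.prod_subset (Finset.subset_univ (Finset.univ \ {i, j}))]
    · rw [Finset.prod_congr rfl (g := fun _ => 2 * T + 1)]
      · rw [Finset.prod_const]
        congr 1
        rw [Finset.card_sdiff_of_subset (Finset.subset_univ _), Finset.card_pair hji.symm]
        simp
      · intro k hk
        simp only [Finset.mem_sdiff, Finset.mem_insert, Finset.mem_singleton] at hk
        simp [hk.2, h2T]
    · intro k _ hk
      simp only [Finset.mem_sdiff, Finset.mem_univ, true_and, not_not, Finset.mem_insert,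
        Finset.mem_singleton] at hk
      simp [hk]

/-- Residues of an integer form on the cube `[0, r]^d`. -/
noncomputable def resid (q : Fin d → ℤ) (M r : ℕ) : Finset (ZMod M) :=
  (Fintype.piFinset fun _ => Finset.Icc (0 : ℤ) r).image
    fun y => ((∑ k, q k * y k : ℤ) : ZMod M)

lemma resid_card {q : Fin d → ℤ} (hq : Prim q) (M : ℕ) [NeZero M] (r : ℕ) :
    min M (r + 1) ≤ (resid q M r).card := by
  induction r with
  | zero =>
    have h0 : (0 : ZMod M) ∈ resid q M 0 :=
      Finset.mem_image.mpr ⟨0, Fintype.mem_piFinset.mpr fun k => by simp, by simp⟩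
    have h1 : 0 < (resid q M 0).card := Finset.card_pos.mpr ⟨0, h0⟩
    omega
  | succ r ih =>
    have hsub : resid q M r ⊆ resid q M (r + 1) := by
      refine Finset.image_subset_image (Fintype.piFinset_subset _ _ fun k => ?_)
      intro x hx
      simp only [Finset.mem_Icc] at hx ⊢
      push_cast
      omega
    by_cases heq : resid q M r = resid q M (r + 1)
    · have hstep : ∀ k, ∀ x ∈ resid q M r, x + (q k : ZMod M) ∈ resid q M r := by
        intro k x hx
        rw [heq]
        obtain ⟨y, hy, rfl⟩ := Finset.mem_image.mp hx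
        refine Finset.mem_image.mpr ⟨y + Pi.single k 1, ?_, ?_⟩
        · simp only [Fintype.mem_piFinset, Finset.mem_Icc] at hy ⊢
          intro l
          have hyl := hy l
          by_cases h : l = k
          · subst h; simp; push_cast; omega
          · simp [h]; push_cast; omega
        · simp [mul_add, Finset.sum_add_distrib, Pi.single_apply]
      have hmul : ∀ k, ∀ n : ℕ, ∀ x ∈ resid q M r, x + n • (q k : ZMod M) ∈ resid q M r := by
        intro k n
        induction n with
        | zero => simp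
        | succ n ihn =>
          intro x hx
          rw [succ_nsmul, ← add_assoc]
          exact hstep k _ (ihn x hx)
      obtain ⟨c, hc⟩ := hq
      have hone : ∀ x ∈ resid q M r, x + 1 ∈ resid q M r := by
        have h : ∀ s : Finset (Fin d), ∀ x ∈ resid q M r,
            x + ∑ k ∈ s, ((c k * q k : ℤ) : ZMod M) ∈ resid q M r := by
          intro s
          induction s using Finset.induction_on with
          | empty => simp
          | insert k s hk ihs =>
            intro x hx
            rw [Finset.sum_insert hk, add_comm _ (∑ _ ∈ s, _), ← add_assoc]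
            have := hmul k ((c k : ZMod M)).val _ (ihs x hx)
            rw [nsmul_eq_mul, ZMod.natCast_val, ZMod.cast_id] at this
            push_cast at this ⊢
            exact this
        intro x hx
        have := h Finset.univ x hx
        rw [← Int.cast_sum, hc] at this
        simpa using this
      have hall : ∀ n : ℕ, (n : ZMod M) ∈ resid q M r := by
        intro n
        induction n with
        | zero => exact Finset.mem_image.mpr ⟨0, by simp [Fintype.mem_piFinset], by simp⟩
        | succ n ihn => push_cast; exact hone _ ihn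
      have huniv : resid q M r = Finset.univ := by
        refine Finset.eq_univ_of_forall fun x => ?_
        have := hall x.val
        rwa [ZMod.natCast_val, ZMod.cast_id] at this
      rw [← heq, huniv, Finset.card_univ, ZMod.card]
      exact min_le_left _ _
    · have h1 : (resid q M r).card < (resid q M (r + 1)).card :=
        Finset.card_lt_card (hsub.ssubset_of_ne heq)
      omega

lemma zeros_along {l : Fin d → ℝ} {q : Fin d → ℤ} (h : Along l q) (T : ℕ) :
    (zeros l T).card * ((T + 1) * min (sz q) (T + 1)) ≤ (6 * T + 1) ^ d := by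
  classical
  obtain ⟨hq, r, hr, hl⟩ := h
  have hne : (Finset.univ : Finset (Fin d)).Nonempty := by
    rw [Finset.univ_nonempty_iff]
    by_contra hd
    rw [not_nonempty_iff] at hd
    exact hq.ne_zero (funext fun i => (hd.false i).elim)
  obtain ⟨i, -, hi⟩ := Finset.exists_mem_eq_sup Finset.univ hne (fun k => (q k).natAbs)
  have hM : sz q = (q i).natAbs := hi
  have hM1 : 1 ≤ sz q := sz_pos hq.ne_zero
  set M := sz q with hMdef
  have : NeZero M := ⟨by omega⟩
  have hqi : q i ≠ 0 := by
    intro h0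
    rw [h0] at hM
    simp at hM
    omega
  have hqiM : ((q i : ℤ) : ZMod M) = 0 := by
    rw [ZMod.intCast_zmod_eq_zero_iff_dvd, hM]
    exact Int.natAbs_dvd.mpr dvd_rfl
  have hch : ∀ ρ ∈ resid q M T, ∃ y : Fin d → ℤ,
      (∀ k, 0 ≤ y k ∧ y k ≤ T) ∧ ((∑ k, q k * y k : ℤ) : ZMod M) = ρ := by
    intro ρ hρ
    obtain ⟨y, hy, hy'⟩ := Finset.mem_image.mp hρ
    simp only [Fintype.mem_piFinset, Finset.mem_Icc] at hy
    exact ⟨y, hy, hy'⟩
  choose! Y hY hYρ using hch
  set f : (Fin d → ℤ) × (ZMod M × ℕ) → (Fin d → ℤ) :=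
    fun w => w.1 + Y w.2.1 + Pi.single i (w.2.2 : ℤ) with hf
  have hz : ∀ b ∈ zeros l T, ∑ k, q k * b k = 0 := by
    intro b hb
    have h1 := (Finset.mem_filter.mp hb).2
    simp only [dot, hl, mul_assoc, ← Finset.mul_sum] at h1
    have h2 : ((∑ k, q k * b k : ℤ) : ℝ) = 0 := by
      push_cast
      exact (mul_eq_zero.mp h1).resolve_left hr.ne'
    exact_mod_cast h2
  have hmaps : Set.MapsTo f
      ((zeros l T ×ˢ (resid q M T ×ˢ Finset.range (T + 1)) : Finset _) :
        Set ((Fin d → ℤ) × (ZMod M × ℕ)))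
      (box d (3 * T) : Set (Fin d → ℤ)) := by
    rintro ⟨b, ρ, k⟩ hw
    simp only [Finset.mem_coe, Finset.mem_product, Finset.mem_range] at hw
    obtain ⟨hb, hρ, hk⟩ := hw
    have hbT := mem_box.mp (Finset.mem_filter.mp hb).1
    rw [Finset.mem_coe, mem_box]
    intro j
    have h1 := abs_le.mp (hbT j)
    have h2 := hY ρ hρ j
    rw [hf, abs_le]
    by_cases hj : j = i
    · subst hj; simp; omega
    · simp [hj]; omega
  have hinj : Set.InjOn f
      ((zeros l T ×ˢ (resid q M T ×ˢ Finset.range (T + 1)) : Finset _) :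
        Set ((Fin d → ℤ) × (ZMod M × ℕ))) := by
    rintro ⟨b, ρ, k⟩ hw ⟨b', ρ', k'⟩ hw' he
    simp only [Finset.mem_coe, Finset.mem_product, Finset.mem_range] at hw hw'
    obtain ⟨hb, hρ, -⟩ := hw
    obtain ⟨hb', hρ', -⟩ := hw'
    have hval : ∀ (b : Fin d → ℤ) (ρ : ZMod M) (k : ℕ), ∑ j, q j * f (b, ρ, k) j
        = (∑ j, q j * b j) + (∑ j, q j * Y ρ j) + q i * k := by
      intro b ρ k
      simp [hf, mul_add, Finset.sum_add_distrib, Pi.single_apply]
    have hs := hval b ρ k
    rw [he, hval, hz b hb, hz b' hb'] at hs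
    have hρeq : ρ' = ρ := by
      have hs' := congrArg (fun z : ℤ => (z : ZMod M)) hs
      simp only [Int.cast_add, Int.cast_mul, hqiM, zero_mul, add_zero, Int.cast_zero,
        zero_add] at hs'
      rw [hYρ ρ hρ, hYρ ρ' hρ'] at hs'
      exact hs'
    subst hρeq
    have hk : k = k' := by
      have : q i * (k : ℤ) = q i * (k' : ℤ) := by linarith
      exact_mod_cast mul_left_cancel₀ hqi this
    subst hk
    have hb2 : b = b' := by simpa [hf] using he
    rw [hb2]
  have hc := Finset.card_le_card_of_injOn f hmaps hinj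
  rw [Finset.card_product, Finset.card_product, Finset.card_range, card_box] at hc
  have hR : min M (T + 1) ≤ (resid q M T).card := resid_card hq M T
  calc (zeros l T).card * ((T + 1) * min M (T + 1))
      ≤ (zeros l T).card * ((T + 1) * (resid q M T).card) := by gcongr
    _ = (zeros l T).card * ((resid q M T).card * (T + 1)) := by ring
    _ ≤ (2 * (3 * T) + 1) ^ d := hc
    _ = (6 * T + 1) ^ d := by ring

/-- The weight of a form: `1/|q|` if it is along a primitive integer vector `q`, else `0`. -/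
noncomputable def weight (l : Fin d → ℝ) : ℝ :=
  open Classical in if h : ∃ q, Along l q then 1 / (sz h.choose : ℝ) else 0

lemma weight_nonneg (l : Fin d → ℝ) : 0 ≤ weight l := by
  unfold weight
  split
  · positivity
  · exact le_rfl

lemma zeros_le (hd : 2 ≤ d) {l : Fin d → ℝ} (hl : l ≠ 0) {T : ℕ} (hT : 1 ≤ T) :
    ((zeros l T).card : ℝ) ≤
      7 ^ d * (T : ℝ) ^ (d - 2) + 7 ^ d * (T : ℝ) ^ (d - 1) * weight l := by
  have hT' : (1 : ℝ) ≤ T := by exact_mod_cast hT
  have hw := weight_nonneg l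
  by_cases h : ∃ q, Along l q
  · have hq := h.choose_spec
    have hwv : weight l = 1 / (sz h.choose : ℝ) := by
      unfold weight; rw [dif_pos h]
    set M := sz h.choose with hMdef
    have hM1 : 1 ≤ M := sz_pos hq.1.ne_zero
    have hMr : (1 : ℝ) ≤ M := by exact_mod_cast hM1
    have h0 := zeros_along hq T
    rw [← hMdef] at h0
    have h1 : ((zeros l T).card : ℝ) * (((T : ℝ) + 1) * min (M : ℝ) ((T : ℝ) + 1))
        ≤ 7 ^ d * (T : ℝ) ^ d := by
      have h2 : ((zeros l T).card : ℝ) * (((T : ℝ) + 1) * min (M : ℝ) ((T : ℝ) + 1))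
          ≤ (6 * (T : ℝ) + 1) ^ d := by exact_mod_cast h0
      refine h2.trans ?_
      rw [← mul_pow]
      gcongr
      linarith
    set Z : ℝ := ((zeros l T).card : ℝ) with hZdef
    have hZ : 0 ≤ Z := by positivity
    rcases le_total (M : ℝ) ((T : ℝ) + 1) with hle | hle
    · rw [min_eq_left hle] at h1
      have h2 : Z ≤ 7 ^ d * (T : ℝ) ^ (d - 1) * (1 / M) := by
        rw [mul_one_div, le_div_iff₀ (by linarith)]
        have h3 : Z * M * T ≤ 7 ^ d * (T : ℝ) ^ (d - 1) * T := by
          rw [mul_assoc (7 ^ d : ℝ), ← pow_succ, show d - 1 + 1 = d by omega]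
          nlinarith
        exact le_of_mul_le_mul_right h3 (by linarith)
      rw [hwv]
      have : (0 : ℝ) ≤ 7 ^ d * (T : ℝ) ^ (d - 2) := by positivity
      linarith
    · rw [min_eq_right hle] at h1
      have h3 : Z * ((T : ℝ) * T) ≤ 7 ^ d * (T : ℝ) ^ (d - 2) * (T * T) := by
        rw [mul_assoc (7 ^ d : ℝ), ← sq (T : ℝ), ← pow_add, show d - 2 + 2 = d by omega, sq]
        nlinarith
      have h4 : Z ≤ 7 ^ d * (T : ℝ) ^ (d - 2) := le_of_mul_le_mul_right h3 (by positivity)
      have : 0 ≤ 7 ^ d * (T : ℝ) ^ (d - 1) * weight l := by positivity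
      linarith
  · have h1 := (zeros_small_or_along l hl T).resolve_right h
    have h2 : ((zeros l T).card : ℝ) ≤ (2 * (T : ℝ) + 1) ^ (d - 2) := by exact_mod_cast h1
    have h3 : (2 * (T : ℝ) + 1) ^ (d - 2) ≤ 7 ^ d * (T : ℝ) ^ (d - 2) := by
      calc (2 * (T : ℝ) + 1) ^ (d - 2) ≤ (7 * (T : ℝ)) ^ (d - 2) := by gcongr; linarith
        _ = 7 ^ (d - 2) * (T : ℝ) ^ (d - 2) := by rw [mul_pow]
        _ ≤ _ := by
          gcongr
          · norm_num
          · omega
    have : 0 ≤ 7 ^ d * (T : ℝ) ^ (d - 1) * weight l := by positivity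
    linarith

/-- The sum of the inverse squared norms over the cube. -/
noncomputable def invSq (d T : ℕ) : ℝ := ∑ x ∈ box d T, (1 : ℝ) / (sz x : ℝ) ^ 2

lemma invSq_step (d T : ℕ) : invSq d (T + 1) ≤
    invSq d T + 2 * d * 3 ^ (d - 1) * ((T : ℝ) + 1) ^ (d - 1) / ((T : ℝ) + 1) ^ 2 := by
  have hsub : box d T ⊆ box d (T + 1) := by
    intro x hx
    rw [mem_box_sz] at hx ⊢
    omega
  rw [invSq, invSq, ← Finset.sum_sdiff hsub, add_comm]
  gcongr
  have hsz : ∀ x ∈ box d (T + 1) \ box d T,
      (1 : ℝ) / (sz x : ℝ) ^ 2 = 1 / ((T : ℝ) + 1) ^ 2 := by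
    intro x hx
    rw [Finset.mem_sdiff, mem_box_sz, mem_box_sz] at hx
    have : sz x = T + 1 := by omega
    rw [this]
    push_cast
    ring
  rw [Finset.sum_congr rfl hsz, Finset.sum_const, nsmul_eq_mul,
    Finset.card_sdiff_of_subset hsub, Nat.cast_sub (Finset.card_le_card hsub), card_box,
    card_box, mul_one_div]
  gcongr
  push_cast
  have h := abs_pow_sub_pow_le (2 * ((T : ℝ) + 1) + 1) (2 * (T : ℝ) + 1) d
  have hmax : max |2 * ((T : ℝ) + 1) + 1| |2 * (T : ℝ) + 1| ≤ 3 * ((T : ℝ) + 1) := by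
    have : (0 : ℝ) ≤ T := Nat.cast_nonneg T
    rw [abs_of_nonneg (by linarith), abs_of_nonneg (by linarith)]
    exact max_le (by linarith) (by linarith)
  calc (2 * ((T : ℝ) + 1) + 1) ^ d - (2 * (T : ℝ) + 1) ^ d
      ≤ |2 * ((T : ℝ) + 1) + 1 - (2 * (T : ℝ) + 1)| * d *
          max |2 * ((T : ℝ) + 1) + 1| |2 * (T : ℝ) + 1| ^ (d - 1) := (le_abs_self _).trans h
    _ ≤ 2 * d * (3 * ((T : ℝ) + 1)) ^ (d - 1) := by
        gcongr
        rw [show 2 * ((T : ℝ) + 1) + 1 - (2 * (T : ℝ) + 1) = 2 by ring, abs_two]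
    _ = 2 * d * 3 ^ (d - 1) * ((T : ℝ) + 1) ^ (d - 1) := by rw [mul_pow]; ring

lemma invSq_zero (d : ℕ) : invSq d 0 = 0 := by
  refine Finset.sum_eq_zero fun x hx => ?_
  rw [mem_box_sz] at hx
  simp [Nat.le_zero.mp hx]

lemma invSq_le (hd : 3 ≤ d) (T : ℕ) :
    invSq d T ≤ 2 * d * 3 ^ (d - 1) * (T : ℝ) ^ (d - 2) := by
  induction T with
  | zero =>
    rw [invSq_zero]
    positivity
  | succ T ih =>
    refine (invSq_step d T).trans ?_
    push_cast
    obtain ⟨e, rfl⟩ : ∃ e, d = e + 3 := ⟨d - 3, by omega⟩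
    simp only [show e + 3 - 2 = e + 1 by omega] at ih ⊢
    rw [show e + 3 - 1 = e + 2 by omega] at ih ⊢
    have hK : (0 : ℝ) ≤ 2 * ((e + 3 : ℕ) : ℝ) * 3 ^ (e + 2) := by positivity
    push_cast at hK ih ⊢
    have h1 : (2 * ((e : ℝ) + 3) * 3 ^ (e + 2)) * ((T : ℝ) + 1) ^ (e + 2) / ((T : ℝ) + 1) ^ 2
        = (2 * ((e : ℝ) + 3) * 3 ^ (e + 2)) * ((T : ℝ) + 1) ^ e := by
      field_simp
      ring
    rw [h1]
    have h2 : (T : ℝ) ^ (e + 1) + ((T : ℝ) + 1) ^ e ≤ ((T : ℝ) + 1) ^ (e + 1) := by
      have h3 : (T : ℝ) ^ e ≤ ((T : ℝ) + 1) ^ e := by gcongr; linarith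
      have h4 : (0 : ℝ) ≤ T := Nat.cast_nonneg T
      rw [pow_succ, pow_succ]
      nlinarith
    nlinarith

lemma invSq_two (T : ℕ) : invSq 2 T ≤ 12 * (1 + Real.log T) := by
  have h : invSq 2 T ≤ 12 * (harmonic T : ℝ) := by
    induction T with
    | zero => simp [invSq_zero]
    | succ T ih =>
      refine (invSq_step 2 T).trans ?_
      rw [harmonic_succ]
      push_cast
      have : 2 * 2 * (3 : ℝ) ^ (2 - 1) * ((T : ℝ) + 1) ^ (2 - 1) / ((T : ℝ) + 1) ^ 2
          = 12 * ((T : ℝ) + 1)⁻¹ := by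
        field_simp
        ring
      rw [this]
      linarith
  have := harmonic_le_one_add_log T
  linarith

lemma sum_inv_sq_le {α : Type*} (s : Finset α) (g : α → Fin d → ℤ) (hg : Set.InjOn g s)
    (T : ℕ) (hT : 1 ≤ T) :
    ∑ a ∈ s, (1 : ℝ) / (sz (g a) : ℝ) ^ 2 ≤ invSq d T + s.card / (T : ℝ) ^ 2 := by
  classical
  rw [← Finset.sum_image (f := fun x => (1 : ℝ) / (sz x : ℝ) ^ 2) hg,
    ← Finset.card_image_of_injOn hg]
  set I := s.image g
  rw [← Finset.sum_filter_add_sum_filter_not I (fun x => x ∈ box d T)]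
  gcongr
  · exact Finset.sum_le_sum_of_subset_of_nonneg
      (fun x hx => (Finset.mem_filter.mp hx).2) (fun x _ _ => by positivity)
  · calc ∑ x ∈ I.filter (fun x => x ∉ box d T), (1 : ℝ) / (sz x : ℝ) ^ 2
        ≤ ∑ _x ∈ I.filter (fun x => x ∉ box d T), (1 : ℝ) / (T : ℝ) ^ 2 := by
          refine Finset.sum_le_sum fun x hx => ?_
          have h1 := (Finset.mem_filter.mp hx).2
          rw [mem_box_sz] at h1
          have : (T : ℝ) ≤ (sz x : ℝ) := by exact_mod_cast (show T ≤ sz x by omega)
          gcongr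
      _ ≤ (I.card : ℝ) / (T : ℝ) ^ 2 := by
          rw [Finset.sum_const, nsmul_eq_mul, mul_one_div]
          gcongr
          exact Finset.filter_subset _ _

end Vale.Agent.Grid
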