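import Vale.Agent.Grid.Count

open Finset

namespace Vale.Agent.Grid

variable {d : ℕ}

/-- An integer vector, read as a real vector. -/
def toReal (a : Fin d → ℤ) : Fin d → ℝ := fun i => (a i : ℝ)

lemma toReal_ne_zero {a : Fin d → ℤ} (ha : a ≠ 0) : toReal a ≠ 0 := by
  intro h
  refine ha (funext fun i => ?_)
  have := congrFun h i
  simp [toReal] at this
  exact this

lemma Along.unique {l : Fin d → ℝ} {q q' : Fin d → ℤ} (h : Along l q) (h' : Along l q') :
    q = q' := by
  obtain ⟨⟨c, hc⟩, r, hr, hl⟩ := h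
  obtain ⟨⟨c', hc'⟩, r', hr', hl'⟩ := h'
  have h1 : ∀ i, r * (q i : ℝ) = r' * (q' i : ℝ) := fun i => (hl i).symm.trans (hl' i)
  set A : ℤ := ∑ i, c i * q' i with hA
  set B : ℤ := ∑ i, c' i * q i with hB
  have hA' : r = r' * (A : ℝ) := by
    calc r = r * ((∑ i, c i * q i : ℤ) : ℝ) := by rw [hc]; simp
      _ = ∑ i, (c i : ℝ) * (r * (q i : ℝ)) := by
          push_cast; rw [Finset.mul_sum]; exact Finset.sum_congr rfl fun i _ => by ring
      _ = r' * (A : ℝ) := by
          rw [hA]; push_cast; rw [Finset.mul_sum]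
          exact Finset.sum_congr rfl fun i _ => by rw [h1]; ring
  have hB' : r' = r * (B : ℝ) := by
    calc r' = r' * ((∑ i, c' i * q' i : ℤ) : ℝ) := by rw [hc']; simp
      _ = ∑ i, (c' i : ℝ) * (r' * (q' i : ℝ)) := by
          push_cast; rw [Finset.mul_sum]; exact Finset.sum_congr rfl fun i _ => by ring
      _ = r * (B : ℝ) := by
          rw [hB]; push_cast; rw [Finset.mul_sum]
          exact Finset.sum_congr rfl fun i _ => by rw [← h1]; ring
  have hApos : 0 < A := by
    have : (0 : ℝ) < (A : ℝ) := by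
      rw [hA'] at hr
      exact (pos_iff_pos_of_mul_pos hr).mp hr'
    exact_mod_cast this
  have hBpos : 0 < B := by
    have : (0 : ℝ) < (B : ℝ) := by
      rw [hB'] at hr'
      exact (pos_iff_pos_of_mul_pos hr').mp hr
    exact_mod_cast this
  have hAB : A * B = 1 := by
    have : r * 1 = r * ((A * B : ℤ) : ℝ) := by
      push_cast
      rw [mul_one]
      nth_rewrite 1 [hA']
      rw [hB']
      ring
    exact_mod_cast (mul_left_cancel₀ hr.ne' this).symm
  have hA1 : A = 1 := Int.eq_one_of_mul_eq_one_right hApos.le hAB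
  funext i
  have := h1 i
  rw [hA', hA1] at this
  simp only [Int.cast_one, mul_one] at this
  exact_mod_cast mul_left_cancel₀ hr'.ne' this

lemma weight_eq {l : Fin d → ℝ} {q : Fin d → ℤ} (h : Along l q) :
    weight l = 1 / (sz q : ℝ) := by
  have he : ∃ q, Along l q := ⟨q, h⟩
  unfold weight
  rw [dif_pos he, h.unique he.choose_spec]

lemma weight_eq_zero {l : Fin d → ℝ} (h : ¬∃ q, Along l q) : weight l = 0 := by
  unfold weight
  rw [dif_neg h]

lemma weight_smul {g : ℝ} (hg : 0 < g) (l : Fin d → ℝ) : weight (g • l) = weight l := by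
  by_cases h : ∃ q, Along l q
  · obtain ⟨q, hq, r, hr, hl⟩ := h
    rw [weight_eq ⟨hq, g * r, mul_pos hg hr, fun i => by simp [hl i, mul_assoc]⟩,
      weight_eq ⟨hq, r, hr, hl⟩]
  · rw [weight_eq_zero h, weight_eq_zero]
    rintro ⟨q, hq, r, hr, hl⟩
    refine h ⟨q, hq, r / g, div_pos hr hg, fun i => ?_⟩
    have := hl i
    simp only [Pi.smul_apply, smul_eq_mul] at this
    field_simp
    linarith

/-- The total weight of the images of the nonzero integer points of the cube. -/
lemma sum_weight_le {L : (Fin d → ℝ) →ₗ[ℝ] (Fin d → ℝ)} (hL : Function.Injective L)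
    (hd : 2 ≤ d) {T : ℕ} (hT : 1 ≤ T) :
    ∑ a ∈ (box d T).erase 0, weight (L (toReal a)) ≤
      T * (invSq d T + 3 ^ d * (T : ℝ) ^ (d - 2)) := by
  classical
  have hT' : (1 : ℝ) ≤ T := by exact_mod_cast hT
  have hex : ∀ a ∈ (box d T).erase 0,
      ∃ g : ℤ, 0 < g ∧ ∃ p : Fin d → ℤ, Prim p ∧ ∀ i, a i = g * p i :=
    fun a ha => exists_prim (Finset.mem_erase.mp ha).1
  choose! g hg π hπ haπ using hex
  set P : Finset (Fin d → ℤ) := (box d T).filter fun p => Prim p with hP
  have hszg : ∀ a ∈ (box d T).erase 0, (g a).toNat * sz (π a) ≤ T := by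
    intro a ha
    have hb := mem_box.mp (Finset.mem_erase.mp ha).2
    have hne : (Finset.univ : Finset (Fin d)).Nonempty := ⟨⟨0, by omega⟩, Finset.mem_univ _⟩
    obtain ⟨i, -, hi⟩ := Finset.exists_mem_eq_sup Finset.univ hne (fun k => (π a k).natAbs)
    change _ * Finset.univ.sup _ ≤ T
    rw [hi]
    have h1 := hb i
    rw [haπ a ha i, Int.abs_eq_natAbs, Int.natAbs_mul] at h1
    have h2 : (g a).natAbs = (g a).toNat := by have := hg a ha; omega
    rw [h2] at h1
    exact_mod_cast h1
  have hmaps : ∀ a ∈ (box d T).erase 0, π a ∈ P := by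
    intro a ha
    refine Finset.mem_filter.mpr ⟨mem_box_sz.mpr ?_, hπ a ha⟩
    have h1 := hszg a ha
    have h2 : 1 ≤ (g a).toNat := by have := hg a ha; omega
    nlinarith
  have hval : ∀ a ∈ (box d T).erase 0, weight (L (toReal a)) = weight (L (toReal (π a))) := by
    intro a ha
    have : toReal a = (g a : ℝ) • toReal (π a) := by
      funext i
      simp [toReal, haπ a ha i]
    rw [this, map_smul, weight_smul (by exact_mod_cast hg a ha)]
  rw [Finset.sum_congr rfl hval, ← Finset.sum_fiberwise_of_maps_to hmaps]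
  have hfib : ∀ p ∈ P,
      ∑ a ∈ ((box d T).erase 0).filter (fun a => π a = p), weight (L (toReal (π a))) ≤
        (T : ℝ) / 2 * (1 / (sz p : ℝ) ^ 2 + weight (L (toReal p)) ^ 2) := by
    intro p hp
    rw [Finset.sum_congr rfl (g := fun _ => weight (L (toReal p)))
      (fun a ha => by rw [(Finset.mem_filter.mp ha).2]), Finset.sum_const, nsmul_eq_mul]
    have hp1 : 1 ≤ sz p := sz_pos (Finset.mem_filter.mp hp).2.ne_zero
    have hcard : (((box d T).erase 0).filter fun a => π a = p).card * sz p ≤ T := by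
      have h1 : (((box d T).erase 0).filter fun a => π a = p).card ≤
          (Finset.Icc 1 (T / sz p)).card := by
        refine Finset.card_le_card_of_injOn (fun a => (g a).toNat) ?_ ?_
        · intro a ha
          rw [Finset.mem_coe, Finset.mem_filter] at ha
          rw [Finset.mem_coe, Finset.mem_Icc, Nat.le_div_iff_mul_le hp1]
          refine ⟨?_, ?_⟩
          · change 1 ≤ (g a).toNat
            have := hg a ha.1; omega
          · have := hszg a ha.1; rwa [ha.2] at this
        · intro a ha b hb hab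
          rw [Finset.mem_coe, Finset.mem_filter] at ha hb
          have : g a = g b := by
            have := hg a ha.1
            have := hg b hb.1
            simp only at hab
            omega
          funext i
          rw [haπ a ha.1 i, haπ b hb.1 i, ha.2, hb.2, this]
      rw [Nat.card_Icc, Nat.add_sub_cancel] at h1
      calc _ ≤ T / sz p * sz p := Nat.mul_le_mul_right _ h1
        _ ≤ T := Nat.div_mul_le_self _ _
    have hw := weight_nonneg (L (toReal p))
    set w := weight (L (toReal p))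
    set S : ℝ := (sz p : ℝ)
    have hS : (1 : ℝ) ≤ S := by simp only [S]; exact_mod_cast hp1
    set k : ℝ := ((((box d T).erase 0).filter fun a => π a = p).card : ℝ)
    have hk : k ≤ T / S := by
      rw [le_div_iff₀ (by linarith)]
      simp only [k, S]
      exact_mod_cast hcard
    have h2 : 2 * (1 / S) * w ≤ (1 / S) ^ 2 + w ^ 2 := two_mul_le_add_sq _ _
    rw [← one_div_pow]
    calc k * w ≤ T / S * w := mul_le_mul_of_nonneg_right hk hw
      _ = (T : ℝ) / 2 * (2 * (1 / S) * w) := by ring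
      _ ≤ _ := by gcongr
  refine (Finset.sum_le_sum hfib).trans ?_
  rw [← Finset.mul_sum, Finset.sum_add_distrib]
  have h1 : ∑ p ∈ P, 1 / (sz p : ℝ) ^ 2 ≤ invSq d T :=
    Finset.sum_le_sum_of_subset_of_nonneg (Finset.filter_subset _ _)
      (fun x _ _ => by positivity)
  set qq : (Fin d → ℤ) → (Fin d → ℤ) := fun p =>
    if h : ∃ q, Along (L (toReal p)) q then h.choose else 0 with hqq
  set P' := P.filter fun p => ∃ q, Along (L (toReal p)) q with hP'
  have hal : ∀ p ∈ P', Along (L (toReal p)) (qq p) := by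
    intro p hp
    have h := (Finset.mem_filter.mp hp).2
    simp only [qq, dif_pos h]
    exact h.choose_spec
  have hinj : Set.InjOn qq P' := by
    intro p hp p' hp' he
    have ha := hal p hp
    have ha' := hal p' hp'
    rw [he] at ha
    obtain ⟨-, r, hr, hl⟩ := ha
    obtain ⟨-, r', hr', hl'⟩ := ha'
    have hs : toReal p = (r / r') • toReal p' := by
      refine hL ?_
      rw [map_smul]
      funext i
      simp only [Pi.smul_apply, smul_eq_mul, hl, hl']
      field_simp
    refine Along.unique (l := toReal p) ?_ ?_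
    · exact ⟨(Finset.mem_filter.mp (Finset.mem_filter.mp hp).1).2, 1, one_pos,
        fun i => by simp [toReal]⟩
    · refine ⟨(Finset.mem_filter.mp (Finset.mem_filter.mp hp').1).2, r / r', div_pos hr hr', ?_⟩
      intro i
      rw [hs]
      rfl
  have h2 : ∑ p ∈ P, weight (L (toReal p)) ^ 2 ≤
      invSq d T + 3 ^ d * (T : ℝ) ^ (d - 2) := by
    have h3 : ∑ p ∈ P, weight (L (toReal p)) ^ 2 = ∑ p ∈ P', 1 / (sz (qq p) : ℝ) ^ 2 := by
      rw [← Finset.sum_filter_add_sum_filter_not P (fun p => ∃ q, Along (L (toReal p)) q),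
        Finset.sum_eq_zero (s := P.filter fun p => ¬∃ q, Along (L (toReal p)) q)
          (fun p hp => by rw [weight_eq_zero (Finset.mem_filter.mp hp).2]; ring), add_zero]
      refine Finset.sum_congr rfl fun p hp => ?_
      rw [weight_eq (hal p hp), div_pow, one_pow]
    rw [h3]
    refine (sum_inv_sq_le P' qq hinj T hT).trans ?_
    gcongr
    rw [div_le_iff₀ (by positivity), mul_assoc, ← pow_add, show d - 2 + 2 = d by omega,
      ← mul_pow]
    calc ((P'.card : ℝ)) ≤ ((box d T).card : ℝ) := by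
          exact_mod_cast Finset.card_le_card
            ((Finset.filter_subset _ _).trans (Finset.filter_subset _ _))
      _ = (2 * (T : ℝ) + 1) ^ d := by rw [card_box]; push_cast; ring
      _ ≤ (3 * (T : ℝ)) ^ d := by gcongr; linarith
  have h0 : (0 : ℝ) ≤ 3 ^ d * (T : ℝ) ^ (d - 2) := by positivity
  calc (T : ℝ) / 2 * (∑ p ∈ P, 1 / (sz p : ℝ) ^ 2 + ∑ p ∈ P, weight (L (toReal p)) ^ 2)
      ≤ (T : ℝ) / 2 * (2 * (invSq d T + 3 ^ d * (T : ℝ) ^ (d - 2))) := by
        gcongr
        linarith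
    _ = _ := by ring

/-- Pairs of integer points `(a, b)` of the cube with `L a` orthogonal to `b`. -/
noncomputable def pairs (L : (Fin d → ℝ) →ₗ[ℝ] (Fin d → ℝ)) (T : ℕ) :
    Finset ((Fin d → ℤ) × (Fin d → ℤ)) :=
  (box d T ×ˢ box d T).filter fun w => dot (L (toReal w.1)) w.2 = 0

lemma pairs_le {L : (Fin d → ℝ) →ₗ[ℝ] (Fin d → ℝ)} (hL : Function.Injective L)
    (hd : 2 ≤ d) {T : ℕ} (hT : 1 ≤ T) :
    ((pairs L T).card : ℝ) ≤
      3 * 21 ^ d * (T : ℝ) ^ (2 * d - 2) + 7 ^ d * (T : ℝ) ^ d * invSq d T := by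
  classical
  have hT' : (1 : ℝ) ≤ T := by exact_mod_cast hT
  have h0mem : (0 : Fin d → ℤ) ∈ box d T := mem_box.mpr fun i => by simp
  have hsum : (pairs L T).card = ∑ a ∈ box d T, (zeros (L (toReal a)) T).card := by
    rw [pairs, Finset.card_filter, Finset.sum_product]
    refine Finset.sum_congr rfl fun a _ => ?_
    rw [zeros, Finset.card_filter]
  rw [hsum, Nat.cast_sum, ← Finset.add_sum_erase _ _ h0mem]
  have hA : ((zeros (L (toReal 0)) T).card : ℝ) ≤ 3 ^ d * (T : ℝ) ^ d := by
    calc ((zeros (L (toReal 0)) T).card : ℝ) ≤ ((box d T).card : ℝ) := by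
          exact_mod_cast Finset.card_le_card (Finset.filter_subset _ _)
      _ = (2 * (T : ℝ) + 1) ^ d := by rw [card_box]; push_cast; ring
      _ ≤ _ := by rw [← mul_pow]; gcongr; linarith
  have hB : ∑ a ∈ (box d T).erase 0, ((zeros (L (toReal a)) T).card : ℝ) ≤
      ∑ a ∈ (box d T).erase 0,
        (7 ^ d * (T : ℝ) ^ (d - 2) + 7 ^ d * (T : ℝ) ^ (d - 1) * weight (L (toReal a))) := by
    refine Finset.sum_le_sum fun a ha => zeros_le hd ?_ hT
    intro h
    have h1 : L (toReal a) = L 0 := by rw [h, map_zero]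
    exact toReal_ne_zero (Finset.mem_erase.mp ha).1 (hL h1)
  rw [Finset.sum_add_distrib, Finset.sum_const, nsmul_eq_mul, ← Finset.mul_sum] at hB
  have hC := sum_weight_le hL hd hT
  have hcard : (((box d T).erase 0).card : ℝ) ≤ 3 ^ d * (T : ℝ) ^ d := by
    calc (((box d T).erase 0).card : ℝ) ≤ ((box d T).card : ℝ) := by
          exact_mod_cast Finset.card_le_card (Finset.erase_subset _ _)
      _ = (2 * (T : ℝ) + 1) ^ d := by rw [card_box]; push_cast; ring
      _ ≤ _ := by rw [← mul_pow]; gcongr; linarith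
  have e1 : (T : ℝ) ^ d ≤ (T : ℝ) ^ (2 * d - 2) := pow_le_pow_right₀ hT' (by omega)
  have e2 : (T : ℝ) ^ d * (T : ℝ) ^ (d - 2) = (T : ℝ) ^ (2 * d - 2) := by
    rw [← pow_add]; congr 1; omega
  have e3 : (T : ℝ) ^ (d - 1) * (T : ℝ) = (T : ℝ) ^ d := by
    rw [← pow_succ]; congr 1; omega
  have e4 : (21 : ℝ) ^ d = 7 ^ d * 3 ^ d := by rw [← mul_pow]; norm_num
  have e5 : (3 : ℝ) ^ d ≤ 21 ^ d := by gcongr; norm_num
  calc ((zeros (L (toReal 0)) T).card : ℝ) +
        ∑ a ∈ (box d T).erase 0, ((zeros (L (toReal a)) T).card : ℝ)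
      ≤ 3 ^ d * (T : ℝ) ^ d + (3 ^ d * (T : ℝ) ^ d * (7 ^ d * (T : ℝ) ^ (d - 2)) +
          7 ^ d * (T : ℝ) ^ (d - 1) * (T * (invSq d T + 3 ^ d * (T : ℝ) ^ (d - 2)))) := by
        refine add_le_add hA (hB.trans (add_le_add ?_ ?_))
        · gcongr
        · gcongr
    _ = 3 ^ d * (T : ℝ) ^ d + 2 * (7 ^ d * 3 ^ d) * ((T : ℝ) ^ d * (T : ℝ) ^ (d - 2)) +
          7 ^ d * ((T : ℝ) ^ (d - 1) * T) * invSq d T := by
        linear_combination (7 : ℝ) ^ d * 3 ^ d * (T : ℝ) ^ (d - 2) * e3
    _ ≤ _ := by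
        rw [e2, e3, ← e4]
        have : (3 : ℝ) ^ d * (T : ℝ) ^ d ≤ 21 ^ d * (T : ℝ) ^ (2 * d - 2) := by gcongr
        linarith

end Vale.Agent.Grid
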