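import Vale.Agent.Grid.Pairs

open Finset
open scoped RealInnerProductSpace

namespace Vale.Agent.Grid

variable {d D : ℕ}

/-- The Gram map of a family of vectors. -/
noncomputable def gram (v : Fin d → EuclideanSpace ℝ (Fin D)) :
    (Fin d → ℝ) →ₗ[ℝ] (Fin d → ℝ) :=
  LinearMap.pi fun j => (innerSL ℝ (v j)).toLinearMap ∘ₗ Fintype.linearCombination ℝ v

lemma gram_apply (v : Fin d → EuclideanSpace ℝ (Fin D)) (a : Fin d → ℝ) (j : Fin d) :
    gram v a j = ⟪v j, ∑ i, a i • v i⟫ := by
  simp [gram, Fintype.linearCombination_apply]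

lemma gram_injective {v : Fin d → EuclideanSpace ℝ (Fin D)} (hv : LinearIndependent ℝ v) :
    Function.Injective (gram v) := by
  rw [injective_iff_map_eq_zero]
  intro a ha
  have h0 : ⟪∑ j, a j • v j, ∑ i, a i • v i⟫ = 0 := by
    rw [sum_inner]
    refine Finset.sum_eq_zero fun j _ => ?_
    rw [real_inner_smul_left, ← gram_apply, ha]
    simp
  exact funext (Fintype.linearIndependent_iff.mp hv a (inner_self_eq_zero.mp h0))

lemma dot_gram (v : Fin d → EuclideanSpace ℝ (Fin D)) (a : Fin d → ℝ) (b : Fin d → ℤ) :
    dot (gram v a) b = ⟪∑ j, (b j : ℝ) • v j, ∑ i, a i • v i⟫ := by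
  rw [sum_inner]
  refine Finset.sum_congr rfl fun j _ => ?_
  rw [gram_apply, real_inner_smul_left, mul_comm]

/-- At every point of a finite subset of an affine lattice box, the square of the number of the
other points is at most the number of pinned distances times the number of orthogonal pairs. -/
lemma sq_le_pinned {v : Fin d → EuclideanSpace ℝ (Fin D)}
    (t : ℕ) (o : EuclideanSpace ℝ (Fin D)) (P : Finset (EuclideanSpace ℝ (Fin D)))
    (hP : ∀ p ∈ P, ∃ x : Fin d → ℤ,
      (∀ i, 0 ≤ x i ∧ x i < (t : ℤ)) ∧ p = o + ∑ i, (x i : ℝ) • v i)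
    {p : EuclideanSpace ℝ (Fin D)} (hp : p ∈ P) :
    (P.erase p).card ^ 2 ≤
      ((P.erase p).image fun q => dist p q).card * (pairs (gram v) (2 * t)).card := by
  classical
  choose! X hX hpX using hP
  set s := P.erase p with hs
  set f : EuclideanSpace ℝ (Fin D) → ℝ := fun q => dist p q with hf
  have hm : s.card = ∑ y ∈ s.image f, (s.filter fun q => f q = y).card :=
    Finset.card_eq_sum_card_image f s
  have hE : ∑ y ∈ s.image f, (s.filter fun q => f q = y).card ^ 2 =
      ((s ×ˢ s).filter fun w => f w.1 = f w.2).card := by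
    rw [Finset.card_filter, Finset.sum_product,
      ← Finset.sum_fiberwise_of_maps_to (fun q hq => Finset.mem_image_of_mem f hq)]
    refine Finset.sum_congr rfl fun y _ => ?_
    rw [Finset.sum_congr rfl (g := fun _ => (s.filter fun q => f q = y).card), Finset.sum_const,
      smul_eq_mul, sq]
    intro q hq
    rw [← Finset.card_filter]
    refine congrArg Finset.card (Finset.filter_congr fun r _ => ?_)
    rw [(Finset.mem_filter.mp hq).2]
    exact eq_comm
  have hinj : ((s ×ˢ s).filter fun w => f w.1 = f w.2).card ≤ (pairs (gram v) (2 * t)).card := by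
    refine Finset.card_le_card_of_injOn
      (fun w => (X w.1 - X w.2, fun i => X w.1 i + X w.2 i - 2 * X p i)) ?_ ?_
    · rintro ⟨q, r⟩ hw
      simp only [Finset.mem_coe, Finset.mem_filter, Finset.mem_product, hs,
        Finset.mem_erase] at hw
      obtain ⟨⟨⟨-, hq⟩, ⟨-, hr⟩⟩, he⟩ := hw
      simp only [pairs, Finset.mem_coe, Finset.mem_filter, Finset.mem_product, mem_box]
      refine ⟨⟨fun i => ?_, fun i => ?_⟩, ?_⟩
      · have := hX q hq i
        have := hX r hr i
        rw [Pi.sub_apply, abs_le]
        push_cast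
        omega
      · have := hX q hq i
        have := hX r hr i
        have := hX p hp i
        rw [abs_le]
        push_cast
        omega
      · rw [dot_gram]
        have hb : ∑ j, ((X q j + X r j - 2 * X p j : ℤ) : ℝ) • v j = (q - p) + (r - p) := by
          conv_rhs => rw [hpX q hq, hpX r hr, hpX p hp]
          simp only [add_sub_add_left_eq_sub, ← Finset.sum_sub_distrib, ← Finset.sum_add_distrib]
          refine Finset.sum_congr rfl fun j _ => ?_
          push_cast
          module
        have ha : ∑ i, toReal (X q - X r) i • v i = (q - p) - (r - p) := by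
          conv_rhs => rw [hpX q hq, hpX r hr, hpX p hp]
          simp only [add_sub_add_left_eq_sub, ← Finset.sum_sub_distrib]
          refine Finset.sum_congr rfl fun j _ => ?_
          simp only [toReal, Pi.sub_apply]
          push_cast
          module
        rw [hb, ha]
        have hn : ‖q - p‖ = ‖r - p‖ := by
          simp only [hf, dist_eq_norm] at he
          rw [norm_sub_rev q p, norm_sub_rev r p, he]
        exact (real_inner_add_sub_eq_zero_iff _ _).mpr hn
    · rintro ⟨q, r⟩ hw ⟨q', r'⟩ hw' he
      simp only [Finset.mem_coe, Finset.mem_filter, Finset.mem_product, hs,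
        Finset.mem_erase] at hw hw'
      simp only [Prod.mk.injEq] at he
      have h1 : X q = X q' := funext fun i => by
        have := congrFun he.1 i
        have := congrFun he.2 i
        simp only [Pi.sub_apply] at *
        omega
      have h2 : X r = X r' := funext fun i => by
        have := congrFun he.1 i
        have := congrFun he.2 i
        simp only [Pi.sub_apply] at *
        omega
      have hq : q = q' := by
        rw [hpX q hw.1.1.2, hpX q' hw'.1.1.2, h1]
      have hr : r = r' := by
        rw [hpX r hw.1.2.2, hpX r' hw'.1.2.2, h2]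
      rw [hq, hr]
  calc s.card ^ 2
      = (∑ y ∈ s.image f, (s.filter fun q => f q = y).card) ^ 2 := by rw [← hm]
    _ ≤ (s.image f).card * ∑ y ∈ s.image f, (s.filter fun q => f q = y).card ^ 2 :=
        sq_sum_le_card_mul_sum_sq
    _ ≤ _ := by rw [hE]; exact Nat.mul_le_mul_left _ hinj

/-- A subset of an affine lattice box has at most as many points as the box. -/
lemma card_le_pow {v : Fin d → EuclideanSpace ℝ (Fin D)} (t : ℕ)
    (o : EuclideanSpace ℝ (Fin D)) (P : Finset (EuclideanSpace ℝ (Fin D)))
    (hP : ∀ p ∈ P, ∃ x : Fin d → ℤ,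
      (∀ i, 0 ≤ x i ∧ x i < (t : ℤ)) ∧ p = o + ∑ i, (x i : ℝ) • v i) :
    P.card ≤ t ^ d := by
  classical
  choose! X hX hpX using hP
  have h := Finset.card_le_card_of_injOn X
    (t := Fintype.piFinset fun _ : Fin d => Finset.Ico (0 : ℤ) t)
    (fun p hp => by simpa [Fintype.mem_piFinset] using hX p hp)
    (fun p hp q hq he => by rw [hpX p hp, hpX q hq, he])
  simpa using h

/-- The pinned bound in the form used below, with real numbers. -/
lemma sq_le_four_mul_pinned {v : Fin d → EuclideanSpace ℝ (Fin D)}
    (t : ℕ) (o : EuclideanSpace ℝ (Fin D)) (P : Finset (EuclideanSpace ℝ (Fin D)))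
    (hP : ∀ p ∈ P, ∃ x : Fin d → ℤ,
      (∀ i, 0 ≤ x i ∧ x i < (t : ℤ)) ∧ p = o + ∑ i, (x i : ℝ) • v i)
    (hn : 2 ≤ P.card) {p : EuclideanSpace ℝ (Fin D)} (hp : p ∈ P) :
    (P.card : ℝ) ^ 2 ≤
      4 * (((P.erase p).image fun q => dist p q).card : ℝ) *
        ((pairs (gram v) (2 * t)).card : ℝ) := by
  have h := sq_le_pinned t o P hP hp
  have h1 : (P.erase p).card + 1 = P.card := Finset.card_erase_add_one hp
  have h2 : P.card ^ 2 ≤
      4 * ((P.erase p).image fun q => dist p q).card * (pairs (gram v) (2 * t)).card := by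
    calc P.card ^ 2 ≤ (2 * (P.erase p).card) ^ 2 := Nat.pow_le_pow_left (by omega) 2
      _ = 4 * (P.erase p).card ^ 2 := by ring
      _ ≤ _ := by rw [mul_assoc]; exact Nat.mul_le_mul_left 4 h
  exact_mod_cast h2

end Vale.Agent.Grid
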